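import Crest.Agent.X262.Mb.Meet

/-! Algebra for the classifying germ: polynomial lift along a line, division lemma,
change of tree (helper37). -/

set_option autoImplicit false
open OnePoint

namespace Crest.Agent.X262.Mb

section newtree
variable {K : Type*} [Field K] {V V' : Type} {T : Tr V} {T' : Tr V'} {a t : V → K}

/-- shift of the relation between two affine functions of the coordinates `k`, `w` -/
noncomputable def relA (T : Tr V) (a t : V → K) (k w : V) (βk αk βw αw : K) : K :=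
  βk + αk * (T.dif a t w 0 k 0 / T.sc t w k - T.sc t k w / T.sc t w k * βw / αw)

/-- scale of the relation between two affine functions of the coordinates `k`, `w` -/
noncomputable def relT (T : Tr V) (t : V → K) (k w : V) (αk αw : K) : K :=
  αk * (T.sc t k w / T.sc t w k) / αw

theorem rel_rel (P : Cv T a t) {k w : V} {βk αk βw αw : K} {yk yw : OnePoint K}
    (hk : Rel yk (P.1 k) βk αk) (hw : Rel yw (P.1 w) βw αw) (hα : αw ≠ 0)
    (hs : T.sc t w k ≠ 0) : Rel yk yw (relA T a t k w βk αk βw αw) (relT T t k w αk αw) := by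
  have := (hk.trans (rel_sc P hs)).trans (hw.symm hα)
  convert this using 1
  · simp only [relA]; field_simp; ring
  · simp only [relT]; field_simp

/-- two relations between the same functions agree if the second takes two finite values -/
theorem rel_coef_unique {X : Type*} {f g : X → OnePoint K} {β α β' α' : K}
    (h : ∀ P, Rel (f P) (g P) β α) (h' : ∀ P, Rel (f P) (g P) β' α')
    (hs : ∀ z : K, ∃ P, g P = (z : OnePoint K)) : β = β' ∧ α = α' := by
  obtain ⟨P0, h0⟩ := hs 0
  obtain ⟨P1, h1⟩ := hs 1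
  have e0 := ((h P0).fin h0).symm.trans ((h' P0).fin h0)
  have e1 := ((h P1).fin h1).symm.trans ((h' P1).fin h1)
  rw [coe_eq_coe] at e0 e1
  simp only [mul_zero, add_zero, mul_one] at e0 e1
  exact ⟨e0, by rw [e0] at e1; exact add_left_cancel e1⟩

theorem exists_coord {X : Type*} {f : X → OnePoint K} {e : Cv T a t → X} {v : V} {β α : K}
    (hα : α ≠ 0) (h : ∀ P, Rel (f (e P)) (P.1 v) β α) (z : K) :
    ∃ P, f (e P) = (z : OnePoint K) :=
  ⟨pt T a t v ((z - β) / α), by
    rw [(h _).fin (pt_self _ _), coe_eq_coe]; field_simp; ring⟩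

variable {a' t' : V' → K}

/-- the new coordinates -/
noncomputable def newPt (v : V' → V) (β α : V' → K) (hα : ∀ w, α w ≠ 0)
    (hs : ∀ w, w ≠ T'.rt → T.sc t (v w) (v (T'.par w)) ≠ 0)
    (ha : ∀ w, w ≠ T'.rt → a' w = relA T a t (v (T'.par w)) (v w) (β (T'.par w)) (α (T'.par w))
      (β w) (α w))
    (ht : ∀ w, w ≠ T'.rt → t' w = relT T t (v (T'.par w)) (v w) (α (T'.par w)) (α w))
    (P : Cv T a t) : Cv T' a' t' :=
  ⟨fun w => (P.1 (v w)).map fun z => β w + α w * z, fun w hw => by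
    rw [ha w hw, ht w hw]
    exact rel_rel P (rel_map _ _ _) (rel_map _ _ _) (hα w) (hs w hw)⟩

theorem bij_of_aff [Finite V'] (h' : SepC T' a' t') (φ : Cv T a t → Cv T' a' t') (v : V' → V)
    (β α : V' → K) (hα : ∀ w, α w ≠ 0) (hφ : ∀ w P, Rel ((φ P).1 w) (P.1 (v w)) (β w) (α w))
    (hv : ∀ k, ∃ w, T.sc t (v w) k ≠ 0 ∧ T.sc t k (v w) ≠ 0) : Function.Bijective φ := by
  constructor
  · intro P P' hP
    refine Subtype.ext (funext fun k => ?_)
    obtain ⟨w, h1, h2⟩ := hv k
    have e1 : P.1 (v w) = P'.1 (v w) :=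
      ((hφ w P).symm (hα w)).unique (hP ▸ (hφ w P').symm (hα w)) (inv_ne_zero (hα w))
    exact (rel_sc P h1).unique (e1 ▸ rel_sc P' h1) (div_ne_zero h2 h1)
  · intro P'
    rcases h'.eq_inf_or_pt P' with rfl | ⟨w, z, rfl⟩
    · exact ⟨ptInf T a t, Subtype.ext (funext fun w => (hφ w _).1 rfl (hα w))⟩
    · have hc : ∀ z : K, (φ (pt T a t (v w) ((z - β w) / α w))).1 w = (z : OnePoint K) := by
        intro z
        rw [(hφ w _).fin (pt_self _ _), coe_eq_coe]; field_simp [hα w]; ring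
      refine ⟨pt T a t (v w) ((z - β w) / α w), Subtype.ext (funext fun k => ?_)⟩
      by_cases hk : T'.sc t' w k = 0
      · rw [pt_of_eq w z hk]
        refine (hφ k _).1 (pt_of_eq _ _ ?_) (hα k)
        by_contra hne
        have hd : ∀ z : K, T'.dif a' t' w z k 0 = 0 := by
          intro z
          have := dif_eq_zero _ (hc z) ((hφ k _).fin (pt_of_ne _ _ hne))
          rwa [Tr.dif_right a' t' w z k _ 0, hk, zero_mul, sub_zero] at this
        have h1 := hd 1
        rw [Tr.dif_left a' t' w 1 0 k 0, hd 0] at h1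
        exact h' w k hk (by simpa using h1) (hd 0)
      · rw [coord_of_ne _ (hc z) hk, pt_of_ne w z hk]

end newtree

namespace Sh
variable {V M J I : Type} (S : Sh V M J) {K : Type*}

section ring
variable [CommRing K] (u : Q V M J I K)

/-- the denominator of `w_j` along the line `pt v ·` -/
noncomputable def den (v : V) (z : K) (j : J) : K := S.dif u.a u.t v z (S.vb j) (u.b j)

open Classical in
/-- a polynomial lift of the map along the line `pt v ·` -/
noncomputable def Phi [Fintype J] (v : V) (z : K) : I → K :=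
  (∏ j, S.den u v z j) • u.c +
    ∑ j, (S.sc u.t v (S.vb j) * ∏ i ∈ Finset.univ.erase j, S.den u v z i) • u.r j

end ring

variable {S} [Field K] {u : Q V M J I K}

theorem w_pt (v : V) (z : K) (j : J) :
    S.w u j (pt S.toTr u.a u.t v z) = S.sc u.t v (S.vb j) / S.den u v z j := ivs_pt v z _ _

@[simp] theorem w_inf (j : J) : S.w u j (S.inf u) = 0 := rfl

variable [Fintype J]

@[simp] theorem F_inf : S.F u (S.inf u) = u.c := by simp [F]

theorem Phi_eq_F {v : V} {z : K} (h : ∀ j, S.den u v z j ≠ 0) :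
    S.Phi u v z = (∏ j, S.den u v z j) • S.F u (pt S.toTr u.a u.t v z) := by
  classical
  rw [Phi, F, smul_add, Finset.smul_sum]
  congr 1
  refine Finset.sum_congr rfl fun j _ => ?_
  rw [smul_smul, w_pt, ← Finset.mul_prod_erase _ _ (Finset.mem_univ j)]
  congr 1
  field_simp [h j]

theorem fv_of_ne {P : S.C u} (h : ∀ j, P ≠ S.pl u j) : S.fv u P = S.F u P := by
  rw [fv, dif_neg]; exact fun ⟨j, hj⟩ => h j hj

variable [Fintype I]

theorem Good.fv_pl (h : S.Good u) (j : J) : S.fv u (S.pl u j) = u.r j := by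
  have hj : ∃ i, S.pl u j = S.pl u i := ⟨j, rfl⟩
  rw [fv, dif_pos hj]
  have := h.lf_injective hj.choose_spec
  rw [← Sum.inr_injective this]

omit [Fintype J] in
theorem Good.den_eq_zero_iff (h : S.Good u) {v : V} {z : K} (hN : NN S.toTr u.a u.t v z) (j : J) :
    S.den u v z j = 0 ↔ pt S.toTr u.a u.t v z = S.pl u j :=
  ⟨fun hd => hN.pt_eq (h.nn (.inr j)) hd, fun hp => dif_of_pt_eq hp⟩

omit [Fintype J] [Fintype I] in
theorem inf_ne_lf (p : M ⊕ J) : S.inf u ≠ S.lf u p := fun e => by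
  have := congrArg (fun P : S.C u => P.1 (S.vl p)) e
  simp only [lf, pt_self] at this
  exact coe_ne_infty _ this.symm

omit [Fintype J] in
theorem Good.ne_pl_iff (h : S.Good u) {P : S.C u} {j : J} :
    P ≠ S.pl u j ↔ P.1 (S.vb j) ≠ ((u.b j : K) : OnePoint K) :=
  not_congr ⟨fun e => by rw [e]; exact pt_self _ _, fun e => h.eq_lf (p := .inr j) P e⟩

open Classical in
theorem Good.Phi_pole (h : S.Good u) {v : V} {z : K} (hN : NN S.toTr u.a u.t v z) {j : J}
    (hj : S.den u v z j = 0) :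
    S.sc u.t v (S.vb j) * ∏ i ∈ Finset.univ.erase j, S.den u v z i ≠ 0 ∧
    S.Phi u v z = (S.sc u.t v (S.vb j) * ∏ i ∈ Finset.univ.erase j, S.den u v z i) • u.r j := by
  constructor
  · refine mul_ne_zero (hN.sc_ne hj) (Finset.prod_ne_zero_iff.mpr fun i hi h0 => ?_)
    have := ((h.den_eq_zero_iff hN i).mp h0).symm.trans ((h.den_eq_zero_iff hN j).mp hj)
    exact (Finset.mem_erase.mp hi).1 (Sum.inr_injective (h.lf_injective this))
  · rw [Phi, Finset.prod_eq_zero (Finset.mem_univ j) hj, zero_smul, zero_add,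
      Finset.sum_eq_single j]
    · intro i _ hi
      rw [Finset.prod_eq_zero (Finset.mem_erase.mpr ⟨hi.symm, Finset.mem_univ j⟩) hj]; simp
    · simp

theorem Good.Phi_fv (h : S.Good u) {v : V} {z : K} (hN : NN S.toTr u.a u.t v z) :
    ∃ s : K, s ≠ 0 ∧ S.Phi u v z = s • S.fv u (pt S.toTr u.a u.t v z) := by
  by_cases hj : ∃ j, S.den u v z j = 0
  · obtain ⟨j, hj⟩ := hj
    obtain ⟨h1, h2⟩ := h.Phi_pole hN hj
    exact ⟨_, h1, by rw [h2, (h.den_eq_zero_iff hN j).mp hj, h.fv_pl]⟩
  · push Not at hj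
    refine ⟨∏ j, S.den u v z j, Finset.prod_ne_zero_iff.mpr fun j _ => hj j, ?_⟩
    rw [Phi_eq_F hj, fv_of_ne fun j e => hj j ((h.den_eq_zero_iff hN j).mpr e)]

theorem Good.F_ne_zero (h : S.Good u) (P : S.C u) : S.F u P ≠ 0 := by
  obtain ⟨l, h1, h2⟩ := h.lin
  intro h0
  have := congrArg (l ⬝ᵥ ·) h0
  simp [F, dotProduct_add, dotProduct_sum, h1, h2] at this

theorem Good.fv_ne_zero (h : S.Good u) (P : S.C u) : S.fv u P ≠ 0 := by
  rw [fv]; split_ifs
  · exact h.r_ne _
  · exact h.F_ne_zero P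

theorem Good.Phi_ne_zero (h : S.Good u) {v : V} {z : K} (hN : NN S.toTr u.a u.t v z) :
    S.Phi u v z ≠ 0 := by
  obtain ⟨s, hs, e⟩ := h.Phi_fv hN
  rw [e]; exact smul_ne_zero hs (h.fv_ne_zero _)

omit [Fintype J] in
theorem Good.w_mul_w (h : S.Good u) {P : S.C u} (hP : ∀ j, P ≠ S.pl u j) {i j : J} (hij : i ≠ j) :
    S.w u i P * S.w u j P = S.w u j (S.pl u i) * S.w u i P + S.w u i (S.pl u j) * S.w u j P := by
  have := ivs_mul_ivs P (h.sep (.inr i) (.inr j) (by simpa using hij)).dif_ne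
    (h.ne_pl_iff.mp (hP i)) (h.ne_pl_iff.mp (hP j))
  rw [pl, pl, lf, lf, w_pt, w_pt]
  exact this

/-- division lemma: a section vanishing at `(v, z)` is divisible by `x_v - z` -/
theorem Good.div (h : S.Good u) {v : V} {z : K} (hN : NN S.toTr u.a u.t v z)
    (l : (I → K) →ₗ[K] K) (hl : l (S.Phi u v z) = 0) :
    ∃ e : J → K, ∀ P : S.C u, (∀ j, P ≠ S.pl u j) → P.1 v ≠ (z : OnePoint K) →
      l (S.F u P) * ivs (P.1 v) z = ∑ j, e j * S.w u j P := by
  classical
  by_cases hj : ∃ j, S.den u v z j = 0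
  · obtain ⟨j, hj⟩ := hj
    obtain ⟨h1, h2⟩ := h.Phi_pole hN hj
    rw [h2, _root_.map_smul, smul_eq_mul] at hl
    have hr : l (u.r j) = 0 := (mul_eq_zero.mp hl).resolve_left h1
    have hs1 : S.sc u.t v (S.vb j) ≠ 0 := hN.sc_ne hj
    have hs2 : S.sc u.t (S.vb j) v ≠ 0 :=
      (h.nn (.inr j)).sc_ne (z' := z) (by rw [Tr.dif_comm]; exact neg_eq_zero.mpr hj)
    set lam := S.sc u.t (S.vb j) v / S.sc u.t v (S.vb j) with hlam
    have hl0 : lam ≠ 0 := div_ne_zero hs2 hs1
    have hw : ∀ P : S.C u, ivs (P.1 v) z = lam * S.w u j P := by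
      intro P
      have h3 := ivs_rel (rel_sc P hs1) hl0 z
      have h4 : S.dif u.a u.t v 0 (S.vb j) 0 / S.sc u.t v (S.vb j) + lam * z = u.b j := by
        rw [den, Tr.dif_right _ _ v z _ _ 0, Tr.dif_left _ _ v z 0] at hj
        rw [hlam]; field_simp; linear_combination hj
      rw [h4] at h3
      rw [w, h3, ← hlam]; field_simp
    refine ⟨fun i => if i = j then lam * (l u.c + ∑ k ∈ Finset.univ.erase j,
      l (u.r k) * S.w u k (S.pl u j)) else lam * l (u.r i) * S.w u j (S.pl u i), fun P hP _ => ?_⟩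
    rw [hw, F, map_add, map_sum, ← Finset.add_sum_erase _ _ (Finset.mem_univ j),
      ← Finset.add_sum_erase _ _ (Finset.mem_univ j)]
    simp only [_root_.map_smul, smul_eq_mul, hr, mul_zero, zero_add, if_true]
    rw [add_mul, Finset.sum_mul, mul_add, add_mul, Finset.mul_sum, Finset.sum_mul, add_assoc,
      ← Finset.sum_add_distrib]
    congr 1
    · ring
    · refine Finset.sum_congr rfl fun i hi => ?_
      have hij := (Finset.mem_erase.mp hi).1
      rw [if_neg hij]
      linear_combination lam * l (u.r i) * h.w_mul_w hP hij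
  · push Not at hj
    rw [Phi_eq_F hj, _root_.map_smul, smul_eq_mul] at hl
    have h0 := (mul_eq_zero.mp hl).resolve_left (Finset.prod_ne_zero_iff.mpr fun j _ => hj j)
    refine ⟨fun j => l (u.r j) * (S.sc u.t (S.vb j) v / S.dif u.a u.t (S.vb j) (u.b j) v z),
      fun P hP hz => ?_⟩
    rw [F, map_add, map_sum] at h0 ⊢
    simp only [_root_.map_smul, smul_eq_mul, w_pt] at h0 ⊢
    rw [eq_neg_of_add_eq_zero_left h0, add_mul, neg_mul, Finset.sum_mul, Finset.sum_mul,
      neg_add_eq_sub, ← Finset.sum_sub_distrib]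
    refine Finset.sum_congr rfl fun j _ => ?_
    have := ivs_mul_ivs P (hj j) hz (h.ne_pl_iff.mp (hP j))
    simp only [w, den] at this ⊢
    linear_combination l (u.r j) * this

end Sh

end Crest.Agent.X262.Mb
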