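import Crest.Agent.X262.Mb.CmA

/-! Re-expansion of the map at the zeros of another linear form (helper37). -/

set_option autoImplicit false
open OnePoint Filter Topology

namespace Crest.Agent.X262.Mb

theorem ev_dif_ne {V : Type} {T : Tr V} {a t : V → ℂ} {u : V} {z' : ℂ} (h : NN T a t u z')
    (v : V) (z₀ : ℂ) : ∀ᶠ z in 𝓝[≠] z₀, T.dif a t v z u z' ≠ 0 := by
  by_cases h0 : T.dif a t v z₀ u z' = 0
  · have hs : T.sc t u v ≠ 0 := h.sc_ne (z' := z₀) (by rw [Tr.dif_comm, h0, neg_zero])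
    filter_upwards [self_mem_nhdsWithin] with z hz
    rw [Tr.dif_left a t v z z₀, h0, zero_add]
    exact mul_ne_zero hs (sub_ne_zero.mpr hz)
  · have : ContinuousAt (fun z => T.dif a t v z u z') z₀ := by
      simp only [Tr.dif, Tr.up]; fun_prop
    exact (this.eventually_ne h0).filter_mono nhdsWithin_le_nhds

namespace Sh
variable {V M J J' I : Type} {S : Sh V M J} {u : Q V M J I ℂ} [Fintype J] [Fintype J'] [Fintype I]
  {W : Type*} [NormedAddCommGroup W] [NormedSpace ℂ W]

omit [Fintype I] in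
theorem continuous_Phi (v : V) : Continuous fun z => S.Phi u v z := by
  simp only [Phi, den, Tr.dif, Tr.up]; fun_prop

variable (S u) in
/-- `g ∘ f = l(f) (c' + ∑ ρ_k / (x_{vq k} - ζ k))` off the old and the new poles -/
def Expand (g : (I → ℂ) →ₗ[ℂ] W) (l : (I → ℂ) →ₗ[ℂ] ℂ) (vq : J' → V) (ζ : J' → ℂ) (c' : W)
    (ρ : J' → W) : Prop :=
  ∀ P : S.C u, (∀ j, P ≠ S.pl u j) → (∀ k, P.1 (vq k) ≠ (ζ k : OnePoint ℂ)) →
    g (S.F u P) = l (S.F u P) • (c' + ∑ k, ivs (P.1 (vq k)) (ζ k) • ρ k)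

variable {g : (I → ℂ) →ₗ[ℂ] W} {l : (I → ℂ) →ₗ[ℂ] ℂ} {vq : J' → V} {ζ : J' → ℂ} {c' : W}
  {ρ : J' → W}

omit [Fintype I] in
theorem Expand.at_inf (hE : S.Expand u g l vq ζ c' ρ) : g u.c = l u.c • c' := by
  have := hE (S.inf u) (fun j => inf_ne_lf _) (fun k => infty_ne_coe _)
  rw [F_inf] at this
  simpa [inf, ptInf] using this

theorem Expand.line (hE : S.Expand u g l vq ζ c' ρ) (h : S.Good u)
    (hN : ∀ k, NN S.toTr u.a u.t (vq k) (ζ k)) (v : V) (z₀ : ℂ) :
    ∀ᶠ z in 𝓝[≠] z₀, g (S.Phi u v z) = l (S.Phi u v z) •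
      (c' + ∑ k, (S.sc u.t v (vq k) / S.dif u.a u.t v z (vq k) (ζ k)) • ρ k) := by
  have h1 : ∀ᶠ z in 𝓝[≠] z₀, ∀ j, S.den u v z j ≠ 0 :=
    eventually_all.mpr fun j => ev_dif_ne (h.nn (.inr j)) v z₀
  have h2 : ∀ᶠ z in 𝓝[≠] z₀, ∀ k, S.dif u.a u.t v z (vq k) (ζ k) ≠ 0 :=
    eventually_all.mpr fun k => ev_dif_ne (hN k) v z₀
  filter_upwards [h1, h2] with z h1 h2
  have := hE (pt S.toTr u.a u.t v z) (fun j e => h1 j (dif_of_pt_eq e))
    (fun k e => h2 k (dif_eq_zero _ (pt_self _ _) e))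
  simp only [ivs_pt] at this
  rw [Phi_eq_F h1, _root_.map_smul, _root_.map_smul, this, smul_smul, smul_eq_mul]

/-- the expansion extends to the old poles -/
theorem Expand.at_reg (hE : S.Expand u g l vq ζ c' ρ) (h : S.Good u)
    (hN : ∀ k, NN S.toTr u.a u.t (vq k) (ζ k)) {v : V} {z₀ : ℂ}
    (hz : ∀ k, S.dif u.a u.t v z₀ (vq k) (ζ k) ≠ 0) :
    g (S.Phi u v z₀) = l (S.Phi u v z₀) •
      (c' + ∑ k, ivs ((pt S.toTr u.a u.t v z₀).1 (vq k)) (ζ k) • ρ k) := by
  have hg := g.continuous_of_finiteDimensional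
  have hl := l.continuous_of_finiteDimensional
  have hP := continuous_Phi (S := S) (u := u) v
  simp only [ivs_pt]
  refine tendsto_nhds_unique_of_eventuallyEq ?_ ?_ (hE.line h hN v z₀)
  · exact ((hg.comp hP).tendsto z₀).mono_left nhdsWithin_le_nhds
  · refine ContinuousAt.tendsto (f := fun z => l (S.Phi u v z) •
      (c' + ∑ k, (S.sc u.t v (vq k) / S.dif u.a u.t v z (vq k) (ζ k)) • ρ k)) ?_ |>.mono_left
      nhdsWithin_le_nhds
    refine ((hl.comp hP).continuousAt).smul (continuousAt_const.add ?_)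
    refine tendsto_finsetSum _ fun k _ => ContinuousAt.smul ?_ continuousAt_const
    refine continuousAt_const.div ?_ (hz k)
    simp only [Tr.dif, Tr.up]; fun_prop

/-- the residue at a new pole -/
theorem Expand.at_pole (hE : S.Expand u g l vq ζ c' ρ) (h : S.Good u)
    (hN : ∀ k, NN S.toTr u.a u.t (vq k) (ζ k))
    (hd : ∀ k k', k ≠ k' → S.dif u.a u.t (vq k) (ζ k) (vq k') (ζ k') ≠ 0) (k : J') {G' : ℂ}
    (h0 : l (S.Phi u (vq k) (ζ k)) = 0)
    (hG : HasDerivAt (fun z => l (S.Phi u (vq k) z)) G' (ζ k)) :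
    g (S.Phi u (vq k) (ζ k)) = G' • ρ k := by
  classical
  have hg := g.continuous_of_finiteDimensional
  have hl := l.continuous_of_finiteDimensional
  have hP := continuous_Phi (S := S) (u := u) (vq k)
  have hR : ContinuousAt (fun z => l (S.Phi u (vq k) z) • (c' + ∑ i ∈ Finset.univ.erase k,
      (S.sc u.t (vq k) (vq i) / S.dif u.a u.t (vq k) z (vq i) (ζ i)) • ρ i)) (ζ k) := by
    refine ((hl.comp hP).continuousAt).smul (continuousAt_const.add ?_)
    refine tendsto_finsetSum _ fun i hi => ContinuousAt.smul ?_ continuousAt_const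
    refine continuousAt_const.div ?_ (hd k i (Finset.mem_erase.mp hi).1.symm)
    simp only [Tr.dif, Tr.up]; fun_prop
  have hR' := hR.tendsto.mono_left (nhdsWithin_le_nhds (s := {ζ k}ᶜ))
  simp only [h0, zero_smul] at hR'
  have hS := ((hasDerivAt_iff_tendsto_slope.mp hG).smul_const (ρ k)).add hR'
  rw [add_zero] at hS
  refine tendsto_nhds_unique_of_eventuallyEq
    (((hg.comp hP).tendsto (ζ k)).mono_left nhdsWithin_le_nhds) hS ?_
  filter_upwards [hE.line h hN (vq k) (ζ k)] with z hz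
  simp only [Function.comp]
  rw [hz, ← Finset.add_sum_erase _ _ (Finset.mem_univ k), slope_def_field, h0]
  simp only [Tr.sc_self, Tr.dif_same, sub_zero, smul_add, smul_smul]
  rw [mul_one_div]; abel

/-- existence of the expansion -/
theorem Good.exists_expand {I' : Type} [Fintype I'] (h : S.Good u) (g : (I → ℂ) →ₗ[ℂ] (I' → ℂ))
    (hN : ∀ k, NN S.toTr u.a u.t (vq k) (ζ k))
    (hd : ∀ k k', k ≠ k' → S.dif u.a u.t (vq k) (ζ k) (vq k') (ζ k') ≠ 0)
    (h0 : ∀ k, l (S.Phi u (vq k) (ζ k)) = 0)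
    (hG : ∀ k, ∃ G' ≠ 0, HasDerivAt (fun z => l (S.Phi u (vq k) z)) G' (ζ k)) (hc : l u.c ≠ 0)
    (hcard : Fintype.card J ≤ Fintype.card J') : ∃ c' ρ, S.Expand u g l vq ζ c' ρ := by
  classical
  let X := {P : S.C u // (∀ j, P ≠ S.pl u j) ∧ ∀ k, P.1 (vq k) ≠ (ζ k : OnePoint ℂ)}
  let b : Option J → X → ℂ := fun o P => o.elim 1 fun j => S.w u j P.1
  let e : Option J' → X → ℂ := fun o P =>
    l (S.F u P.1) * o.elim 1 fun k => ivs (P.1.1 (vq k)) (ζ k)
  have hF : ∀ m : (I → ℂ) →ₗ[ℂ] ℂ,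
      (fun P : X => m (S.F u P.1)) ∈ Submodule.span ℂ (Set.range b) := by
    intro m
    rw [Submodule.mem_span_range_iff_exists_fun]
    refine ⟨fun o => o.elim (m u.c) fun j => m (u.r j), funext fun P => ?_⟩
    simp [b, F, map_sum, mul_comm]
  have he : Submodule.span ℂ (Set.range e) ≤ Submodule.span ℂ (Set.range b) := by
    rw [Submodule.span_le]
    rintro _ ⟨o, rfl⟩
    cases o with
    | none => simpa [e] using hF l
    | some k =>
      obtain ⟨c, hc⟩ := h.div (hN k) l (h0 k)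
      rw [SetLike.mem_coe, Submodule.mem_span_range_iff_exists_fun]
      refine ⟨fun o => o.elim 0 c, funext fun P => ?_⟩
      simp [b, e, hc P.1 P.2.1 (P.2.2 k)]
  have hind : LinearIndependent ℂ e := by
    rw [Fintype.linearIndependent_iff]
    intro c hc0
    have hE : S.Expand u (0 : (I → ℂ) →ₗ[ℂ] ℂ) l vq ζ (c none) (fun k => c (Option.some k)) := by
      intro P h1 h2
      have := congrFun hc0 ⟨P, h1, h2⟩
      simp only [Finset.sum_apply, Fintype.sum_option, Pi.smul_apply, e, Option.elim,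
        smul_eq_mul, Pi.zero_apply, mul_one] at this
      simp only [LinearMap.zero_apply, smul_eq_mul]
      rw [← this, mul_add, Finset.mul_sum, mul_comm]
      congr 1
      exact Finset.sum_congr rfl fun k _ => by ring
    intro o
    cases o with
    | none => simpa [hc] using hE.at_inf
    | some k =>
      obtain ⟨G', h1, h2⟩ := hG k
      simpa [h1] using hE.at_pole h hN hd k (h0 k) h2
  have hspan : Submodule.span ℂ (Set.range e) = Submodule.span ℂ (Set.range b) := by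
    have : FiniteDimensional ℂ (Submodule.span ℂ (Set.range b)) :=
      FiniteDimensional.span_of_finite ℂ (Set.finite_range b)
    refine Submodule.eq_of_le_of_finrank_le he ?_
    rw [finrank_span_eq_card hind]
    refine (finrank_range_le_card b).trans ?_
    simpa using hcard
  have hi : ∀ i : I', ∃ c : Option J' → ℂ, ∑ o, c o • e o = fun P : X => g (S.F u P.1) i := by
    intro i
    rw [← Submodule.mem_span_range_iff_exists_fun, hspan]
    exact hF ((LinearMap.proj i).comp g)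
  choose c hc using hi
  refine ⟨fun i => c i none, fun k i => c i (Option.some k), fun P h1 h2 => funext fun i => ?_⟩
  have := congrFun (hc i) ⟨P, h1, h2⟩
  simp only [Finset.sum_apply, Fintype.sum_option, Pi.smul_apply, e, Option.elim,
    smul_eq_mul, mul_one, Pi.add_apply] at this ⊢
  rw [← this, mul_add, Finset.mul_sum, mul_comm]
  congr 1
  exact Finset.sum_congr rfl fun k _ => by ring

end Sh

end Crest.Agent.X262.Mb
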