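import Mathlib

/-! Rooted residue charts of the moduli space of genus `0` stable maps to `ℙ(I → K)`.
Definitions only (and `pt ∈ Cv`). -/

set_option autoImplicit false
open OnePoint

namespace Crest.Agent.X262.Mb

/-- A rooted tree on the vertex type `V`. -/
structure Tr (V : Type) where
  rt : V
  par : V → V
  dep : V → ℕ
  par_rt : par rt = rt
  dep_rt : dep rt = 0
  dep_par : ∀ v, v ≠ rt → dep v = dep (par v) + 1

namespace Tr
variable {V : Type} (T : Tr V)

/-- `m` is an ancestor of `v` (or `v` itself). -/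
def Anc (m v : V) : Prop := T.dep m ≤ T.dep v ∧ T.par^[T.dep v - T.dep m] v = m

theorem anc_refl (v : V) : T.Anc v v := ⟨le_rfl, by simp⟩

theorem eq_rt_of_dep {v : V} (h : T.dep v = 0) : v = T.rt := by
  by_contra hv; have := T.dep_par v hv; omega

theorem dep_iter (v : V) : ∀ k, k ≤ T.dep v → T.dep (T.par^[k] v) = T.dep v - k
  | 0, _ => by simp
  | k + 1, hk => by
    have h := dep_iter v k (by omega)
    have hne : T.par^[k] v ≠ T.rt := by
      intro e; rw [e, T.dep_rt] at h; omega
    have := T.dep_par _ hne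
    rw [Function.iterate_succ_apply']; omega

theorem anc_rt (v : V) : T.Anc T.rt v := by
  refine ⟨by simp [T.dep_rt], ?_⟩
  apply T.eq_rt_of_dep
  rw [T.dep_rt, T.dep_iter v _ (by omega)]; omega

theorem Anc.par {T : Tr V} {m v : V} (h : T.Anc m v) (hm : m ≠ T.rt) : T.Anc (T.par m) v := by
  have h1 := T.dep_par m hm
  have h2 := h.1
  refine ⟨by omega, ?_⟩
  have : T.dep v - T.dep (T.par m) = (T.dep v - T.dep m) + 1 := by omega
  rw [this, Function.iterate_succ_apply', h.2]

section chain
variable {R : Type*} [CommRing R] (a t : V → R)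

/-- `x (par^[k] v) = cA + cT * x v`. -/
def cA (v : V) : ℕ → R
  | 0 => 0
  | k + 1 => a (T.par^[k] v) + t (T.par^[k] v) * cA v k

/-- `x (par^[k] v) = cA + cT * x v`. -/
def cT (v : V) : ℕ → R
  | 0 => 1
  | k + 1 => t (T.par^[k] v) * cT v k

/-- For an ancestor `m` of `v`: `x m = A m v + B m v * x v`. -/
def A (m v : V) : R := T.cA a t v (T.dep v - T.dep m)

/-- For an ancestor `m` of `v`: `x m = A m v + B m v * x v`. -/
def B (m v : V) : R := T.cT t v (T.dep v - T.dep m)

/-- The point with coordinate `z` at `v`, seen from the ancestor `m` of `v`. -/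
def up (m v : V) (z : R) : R := T.A a t m v + T.B t m v * z

@[simp] theorem A_self (v : V) : T.A a t v v = 0 := by simp [A, cA]
@[simp] theorem B_self (v : V) : T.B t v v = 1 := by simp [B, cT]
@[simp] theorem up_self (v : V) (z : R) : T.up a t v v z = z := by simp [up]

theorem A_par {m v : V} (h : T.Anc m v) (hm : m ≠ T.rt) :
    T.A a t (T.par m) v = a m + t m * T.A a t m v := by
  have h1 := T.dep_par m hm
  have h2 := h.1
  have : T.dep v - T.dep (T.par m) = (T.dep v - T.dep m) + 1 := by omega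
  rw [A, this, cA, h.2, A]

theorem B_par {m v : V} (h : T.Anc m v) (hm : m ≠ T.rt) :
    T.B t (T.par m) v = t m * T.B t m v := by
  have h1 := T.dep_par m hm
  have h2 := h.1
  have : T.dep v - T.dep (T.par m) = (T.dep v - T.dep m) + 1 := by omega
  rw [B, this, cT, h.2, B]

theorem up_par {m v : V} (h : T.Anc m v) (hm : m ≠ T.rt) (z : R) :
    T.up a t (T.par m) v z = a m + t m * T.up a t m v z := by
  rw [up, up, T.A_par a t h hm, T.B_par t h hm]; ring

end chain
end Tr

section curve
variable {K : Type*} [Field K] {V : Type}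

/-- The `(1,1)`-relation `x = a + t x'` on `ℙ¹ × ℙ¹`. -/
def Rel (x x' : OnePoint K) (a t : K) : Prop :=
  (x' = ∞ → t ≠ 0 → x = ∞) ∧ ∀ z : K, x' = z → x = ((a + t * z : K) : OnePoint K)

/-- The nodal curve with gluing data `a, t`. -/
def Cv (T : Tr V) (a t : V → K) : Set (V → OnePoint K) :=
  {x | ∀ w, w ≠ T.rt → Rel (x (T.par w)) (x w) (a w) (t w)}

open Classical in
/-- Solve `x = a + t x'` for `x'` (value `∞` if `t = 0`). -/
noncomputable def dn (a t : K) (x : OnePoint K) : OnePoint K :=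
  if t = 0 then ∞ else x.map fun z => (z - a) / t

theorem rel_dn (a t : K) (x : OnePoint K) : Rel x (dn a t x) a t := by
  unfold dn
  split_ifs with h
  · exact ⟨fun _ h' => (h' h).elim, fun z hz => by simp at hz⟩
  · induction x using OnePoint.rec with
    | infty => exact ⟨fun _ _ => rfl, fun z hz => by simp at hz⟩
    | coe x =>
      refine ⟨fun h' => by simp at h', fun z hz => ?_⟩
      simp only [map_some, coe_eq_coe] at hz ⊢
      rw [← hz]; field_simp; ring

open Classical in
/-- Coordinates of the point with coordinate `z` at the vertex `v` (on the component of `v`). -/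
noncomputable def ptf (T : Tr V) (a t : V → K) (v : V) (z : K) (w : V) : OnePoint K :=
  if _h : T.Anc w v then ((T.up a t w v z : K) : OnePoint K)
  else dn (a w) (t w) (ptf T a t v z (T.par w))
termination_by T.dep w
decreasing_by
  have : w ≠ T.rt := fun e => _h (e ▸ T.anc_rt v)
  have := T.dep_par w this; omega

theorem ptf_anc (T : Tr V) (a t : V → K) {v w : V} (z : K) (h : T.Anc w v) :
    ptf T a t v z w = ((T.up a t w v z : K) : OnePoint K) := by
  rw [ptf, dif_pos h]

theorem ptf_not_anc (T : Tr V) (a t : V → K) {v w : V} (z : K) (h : ¬ T.Anc w v) :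
    ptf T a t v z w = dn (a w) (t w) (ptf T a t v z (T.par w)) := by
  rw [ptf, dif_neg h]

theorem ptf_mem (T : Tr V) (a t : V → K) (v : V) (z : K) : ptf T a t v z ∈ Cv T a t := by
  intro w hw
  by_cases h : T.Anc w v
  · rw [ptf_anc T a t z h, ptf_anc T a t z (h.par hw), T.up_par a t h hw]
    exact ⟨fun h' => by simp at h', fun z' hz => by
      simp only [coe_eq_coe] at hz ⊢; rw [hz]⟩
  · rw [ptf_not_anc T a t z h]; exact rel_dn _ _ _

/-- The point with coordinate `z` at the vertex `v`. -/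
noncomputable def pt (T : Tr V) (a t : V → K) (v : V) (z : K) : Cv T a t :=
  ⟨ptf T a t v z, ptf_mem T a t v z⟩

/-- The root marking. -/
def ptInf (T : Tr V) (a t : V → K) : Cv T a t :=
  ⟨fun _ => ∞, fun _ _ => ⟨fun _ _ => rfl, fun z hz => by simp at hz⟩⟩

/-- The finite part of a point of `ℙ¹` (junk `0` at `∞`). -/
def fin (x : OnePoint K) : K := x.elim 0 id

/-- `1 / (x - b)` (`0` at `∞`, junk `0` at `b`). -/
def ivs (x : OnePoint K) (b : K) : K := x.elim 0 fun z => (z - b)⁻¹

/-- `P` is a smooth point different from the root marking. -/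
def Simple {T : Tr V} {a t : V → K} (P : Cv T a t) : Prop :=
  ∃ m, P.1 m ≠ ∞ ∧ ∀ P' : Cv T a t, P'.1 m = P.1 m → P' = P

end curve

/-- Shape: a rooted tree with non-root marks `M` and poles `J` attached to vertices. -/
structure Sh (V M J : Type) extends Tr V where
  vm : M → V
  vb : J → V

/-- Parameters `(a, t, y, b, c, r)`. -/
abbrev Q (V M J I : Type) (R : Type*) :=
  (V → R) × (V → R) × (M → R) × (J → R) × (I → R) × (J → I → R)

namespace Q
variable {V M J I : Type} {R : Type*} (u : Q V M J I R)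
/-- node positions -/
abbrev a : V → R := u.1
/-- smoothing parameters -/
abbrev t : V → R := u.2.1
/-- positions of the marks -/
abbrev y : M → R := u.2.2.1
/-- positions of the poles -/
abbrev b : J → R := u.2.2.2.1
/-- value at the root marking -/
abbrev c : I → R := u.2.2.2.2.1
/-- residues -/
abbrev r : J → I → R := u.2.2.2.2.2
/-- position of a leaf (mark or pole) at its vertex -/
def yl : M ⊕ J → R := Sum.elim u.y u.b
/-- position of a special point (child, mark or pole) at its vertex -/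
def pos : V ⊕ M ⊕ J → R := Sum.elim u.a u.yl
/-- apply a ring homomorphism (or any map) to all coordinates -/
def map {R' : Type*} (φ : R → R') : Q V M J I R' :=
  (φ ∘ u.a, φ ∘ u.t, φ ∘ u.y, φ ∘ u.b, φ ∘ u.c, fun j => φ ∘ u.r j)
/-- apply a map to the target data `(c, r)` -/
def act {I' : Type} (g : (I → R) → (I' → R)) : Q V M J I' R :=
  (u.a, u.t, u.y, u.b, g u.c, fun j => g (u.r j))
end Q

namespace Sh
variable {V M J I : Type} (S : Sh V M J)

/-- vertex of a leaf -/
def vl : M ⊕ J → V := Sum.elim S.vm S.vb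
/-- vertex carrying a special point -/
def loc : V ⊕ M ⊕ J → V := Sum.elim S.par S.vl

variable {K : Type*} [Field K] (u : Q V M J I K)

/-- the curve of `u` -/
abbrev C : Type _ := Cv S.toTr u.a u.t
/-- the point of a leaf -/
noncomputable def lf (p : M ⊕ J) : S.C u := pt S.toTr u.a u.t (S.vl p) (u.yl p)
/-- the `i`-th non-root marked point -/
noncomputable abbrev mrk (i : M) : S.C u := S.lf u (.inl i)
/-- the `j`-th pole -/
noncomputable abbrev pl (j : J) : S.C u := S.lf u (.inr j)
/-- the root marked point -/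
abbrev inf : S.C u := ptInf S.toTr u.a u.t
/-- the function `1 / (x_{v(j)} - b_j)` (junk `0` at the pole `j`) -/
def w (j : J) (P : S.C u) : K := ivs (P.1 (S.vb j)) (u.b j)
/-- `f / l(f) = c + ∑ w_j r_j` (valid off the poles) -/
def F [Fintype J] (P : S.C u) : I → K := u.c + ∑ j, S.w u j P • u.r j

open Classical in
/-- a vector representing `f(P) ∈ ℙ(I → K)` -/
noncomputable def fv [Fintype J] (P : S.C u) : I → K :=
  if h : ∃ j, P = S.pl u j then u.r h.choose else S.F u P

/-- evaluation at the marked points (`none` = root), normalised by `l = 1` -/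
noncomputable def ev [Fintype J] : Option M → I → K
  | none => u.c
  | Option.some i => S.F u (S.mrk u i)

/-- two leaves are separated -/
def Sep (p q : M ⊕ J) : Prop :=
  ∃ m, S.Anc m (S.vl p) ∧ S.Anc m (S.vl q) ∧
    S.up u.a u.t m (S.vl p) (u.yl p) ≠ S.up u.a u.t m (S.vl q) (u.yl q)

/-- `u` is a prestable map in residue form (stability is NOT included). -/
structure Good [Fintype I] : Prop where
  leaf : ∀ v, ∃ p, S.Anc v (S.vl p)
  sep : ∀ p q, p ≠ q → S.Sep u p q
  r_ne : ∀ j, u.r j ≠ 0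
  lin : ∃ l : I → K, l ⬝ᵥ u.c = 1 ∧ ∀ j, l ⬝ᵥ u.r j = 0

/-- stability: the component of every vertex has two special points besides `∞`, or a pole -/
def Stable : Prop :=
  ∀ v, (∃ p q, (S.lf u p).1 v ≠ ∞ ∧ (S.lf u q).1 v ≠ ∞ ∧ (S.lf u p).1 v ≠ (S.lf u q).1 v) ∨
    ∃ j, (S.pl u j).1 v ≠ ∞ ∧ ∀ P : S.C u, P.1 v = (S.pl u j).1 v → P = S.pl u j

/-- frame of `π_* f^* O(k)`: the functions `1, w_j ^ (i+1)`, `i < k` (sections divided by `l(f)^k`) -/
def fr (k : ℕ) : Option (J × Fin k) → S.C u → K
  | none => fun _ => 1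
  | Option.some ji => fun P => S.w u ji.1 P ^ (ji.2.1 + 1)

/-- value (divided by `l(f)^k`) of the section with coefficients `σ` at a point off the poles -/
def sv [Fintype J] (k : ℕ) (σ : Option (J × Fin k) → K) (P : S.C u) : K :=
  ∑ n, σ n * S.fr u k n P

end Sh

/-- An isomorphism of the curves of `u` and `u'` with `f' ∘ e = g ∘ f`, respecting the marks. -/
@[ext] structure Arr {K : Type*} [Field K] {V V' M J J' I I' : Type} [Fintype J] [Fintype J']
    (g : (I → K) →ₗ[K] (I' → K)) (S : Sh V M J) (u : Q V M J I K)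
    (S' : Sh V' M J') (u' : Q V' M J' I' K) where
  e : S.C u ≃ S'.C u'
  aff : ∀ v', ∃ v β α, α ≠ 0 ∧ ∀ P, Rel ((e P).1 v') (P.1 v) β α
  aff' : ∀ v, ∃ v' β α, α ≠ 0 ∧ ∀ P, Rel (P.1 v) ((e P).1 v') β α
  mrk : ∀ i, e (S.mrk u i) = S'.mrk u' i
  map : ∀ P, ∃ s : K, s ≠ 0 ∧ S'.fv u' (e P) = s • g (S.fv u P)

namespace Arr
variable {K : Type*} [Field K] {V V' M J J' I I' : Type} [Fintype J] [Fintype J']
  {g : (I → K) →ₗ[K] (I' → K)} {S : Sh V M J} {u : Q V M J I K}
  {S' : Sh V' M J'} {u' : Q V' M J' I' K} (γ : Arr g S u S' u')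

/-- `x'_{v'} ∘ e = be + al * x_v` whenever such a relation holds -/
noncomputable def be (v' : V') (v : V) : K := fin ((γ.e (pt S.toTr u.a u.t v 0)).1 v')
/-- `x'_{v'} ∘ e = be + al * x_v` whenever such a relation holds; cocycle of the tangent lines -/
noncomputable def al (v' : V') (v : V) : K :=
  fin ((γ.e (pt S.toTr u.a u.t v 1)).1 v') - γ.be v' v
end Arr

/-- `∑ l i • c i` for a complex linear form `l` and a vector over a `ℂ`-algebra. -/
def lin {I : Type} [Fintype I] {R : Type*} [CommRing R] [Algebra ℂ R] (l : I → ℂ) (c : I → R) : R :=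
  ∑ i, l i • c i

/-- A chart: shape, linear form `l`, and the (linear) gauge at every vertex. -/
structure Ch (V M J I : Type) extends Sh V M J where
  l : I → ℂ
  /-- special point at `v` placed at `0` -/
  s0 : V → V ⊕ M ⊕ J
  /-- special point at `v` placed at `1`, or a pole at `v` with `lam (r j) = 1` -/
  s1 : V → (V ⊕ M ⊕ J) ⊕ J × (I → ℂ)
  /-- base leaf below `v` (follow `s0`) -/
  bl : V → M ⊕ J
  s0_loc : ∀ v, toSh.loc (s0 v) = v
  s0_ne : ∀ v, s0 v ≠ .inl rt
  s1_loc : ∀ v, Sum.elim toSh.loc (fun p => vb p.1) (s1 v) = v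
  s1_ne : ∀ v, s1 v ≠ .inl (.inl rt)
  bl_eq : ∀ v, bl v = Sum.elim bl id (s0 v)
  bl_anc : ∀ v, toTr.Anc v (toSh.vl (bl v))

namespace Ch
variable {V M J I : Type} [Fintype I] (A : Ch V M J I)

/-- the second gauge functional at `v` -/
def nu {R : Type*} [CommRing R] [Algebra ℂ R] (u : Q V M J I R) (v : V) : R :=
  Sum.elim u.pos (fun p => lin p.2 (u.r p.1)) (A.s1 v)

/-- the affine slice -/
def Sl (R : Type*) [CommRing R] [Algebra ℂ R] : Set (Q V M J I R) :=
  {u | u.a A.rt = 0 ∧ u.t A.rt = 0 ∧ lin A.l u.c = 1 ∧ (∀ j, lin A.l (u.r j) = 0) ∧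
    ∀ v, u.pos (A.s0 v) = 0 ∧ A.nu u v = 1}

/-- the chart domain: an open part of the slice -/
def U (K : Type*) [Field K] [Algebra ℂ K] : Set (Q V M J I K) :=
  {u | u ∈ A.Sl K ∧ (∀ p q, p ≠ q → A.toSh.Sep u p q) ∧ ∀ j, u.r j ≠ 0}

end Ch

/-- Bundled charts of `M̄_{0, Option M}(ℙ(I → ℂ), d)`. -/
structure Chart (M I : Type) (d : ℕ) where
  V : Type
  J : Type
  [fV : Fintype V]
  [fJ : Fintype J]
  [dV : DecidableEq V]
  [dJ : DecidableEq J]
  card : Fintype.card J = d
  ch : Ch V M J I

attribute [instance] Chart.fV Chart.fJ Chart.dV Chart.dJ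

end Crest.Agent.X262.Mb
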