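import Crest.Agent.X262.Mb.Def

/-! Meets in a rooted tree and the calculus of the tree curve (helper37). -/

set_option autoImplicit false
open OnePoint

namespace Crest.Agent.X262.Mb

namespace Tr
variable {V : Type} {T : Tr V}

theorem anc_iter (T : Tr V) (v : V) (k : ℕ) : T.Anc (T.par^[k] v) v := by
  induction k with
  | zero => exact T.anc_refl v
  | succ k ih =>
    rw [Function.iterate_succ_apply']
    by_cases h : T.par^[k] v = T.rt
    · rw [h, T.par_rt]; exact T.anc_rt v
    · exact ih.par h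

theorem anc_iff {m v : V} : T.Anc m v ↔ ∃ k, T.par^[k] v = m :=
  ⟨fun h => ⟨_, h.2⟩, fun ⟨k, hk⟩ => hk ▸ T.anc_iter v k⟩

theorem anc_par (T : Tr V) (v : V) : T.Anc (T.par v) v := T.anc_iter v 1

theorem Anc.trans {k m v : V} (h : T.Anc k m) (h' : T.Anc m v) : T.Anc k v := by
  obtain ⟨i, rfl⟩ := anc_iff.mp h
  obtain ⟨j, rfl⟩ := anc_iff.mp h'
  exact anc_iff.mpr ⟨i + j, by rw [Function.iterate_add_apply]⟩

theorem Anc.eq_of_dep {m v : V} (h : T.Anc m v) (hd : T.dep v ≤ T.dep m) : m = v := by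
  have := h.2
  rw [Nat.sub_eq_zero_of_le hd] at this
  exact this.symm

theorem Anc.antisymm {m v : V} (h : T.Anc m v) (h' : T.Anc v m) : m = v := h.eq_of_dep h'.1

theorem Anc.chain {a b u : V} (h : T.Anc a u) (h' : T.Anc b u) : T.Anc a b ∨ T.Anc b a := by
  obtain ⟨i, rfl⟩ := anc_iff.mp h
  obtain ⟨j, rfl⟩ := anc_iff.mp h'
  rcases le_total i j with hij | hij
  · right; obtain ⟨k, rfl⟩ := Nat.exists_eq_add_of_le' hij
    exact anc_iff.mpr ⟨k, by rw [Function.iterate_add_apply]⟩
  · left; obtain ⟨k, rfl⟩ := Nat.exists_eq_add_of_le' hij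
    exact anc_iff.mpr ⟨k, by rw [Function.iterate_add_apply]⟩

theorem Anc.of_ne {m v : V} (h : T.Anc m v) (hne : m ≠ v) : T.Anc m (T.par v) := by
  obtain ⟨i, rfl⟩ := anc_iff.mp h
  cases i with
  | zero => exact absurd rfl hne
  | succ i => exact anc_iff.mpr ⟨i, by rw [Function.iterate_succ_apply]⟩

theorem Anc.eq_rt {m : V} (h : T.Anc m T.rt) : m = T.rt := h.antisymm (T.anc_rt m)

theorem not_anc_par {v : V} (hv : v ≠ T.rt) : ¬ T.Anc v (T.par v) := fun h => by
  have := h.1; have := T.dep_par v hv; omega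

/-- induction towards the root -/
theorem Anc.ind {v : V} {P : V → Prop} (h0 : P v)
    (hs : ∀ m, T.Anc m v → m ≠ T.rt → P m → P (T.par m)) {m : V} (h : T.Anc m v) : P m := by
  obtain ⟨i, rfl⟩ := anc_iff.mp h
  induction i with
  | zero => exact h0
  | succ i ih =>
    rw [Function.iterate_succ_apply']
    by_cases hr : T.par^[i] v = T.rt
    · have := ih (T.anc_iter v i); rw [hr] at this ⊢; rwa [T.par_rt]
    · exact hs _ (T.anc_iter v i) hr (ih (T.anc_iter v i))

theorem exists_mt (T : Tr V) (u v : V) :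
    ∃ m, T.Anc m u ∧ T.Anc m v ∧ ∀ k, T.Anc k u → T.Anc k v → T.Anc k m := by
  classical
  have hex : ∃ i, T.Anc (T.par^[i] u) v := ⟨T.dep u - T.dep T.rt, by
    rw [(T.anc_rt u).2]; exact T.anc_rt v⟩
  refine ⟨T.par^[Nat.find hex] u, T.anc_iter u _, Nat.find_spec hex, fun k hk hkv => ?_⟩
  obtain ⟨j, rfl⟩ := anc_iff.mp hk
  obtain ⟨i, hi⟩ := Nat.exists_eq_add_of_le' (Nat.find_min' hex hkv)
  exact anc_iff.mpr ⟨i, by rw [hi, Function.iterate_add_apply]⟩

/-- the deepest common ancestor -/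
noncomputable def mt (T : Tr V) (u v : V) : V := (T.exists_mt u v).choose

theorem mt_left (T : Tr V) (u v : V) : T.Anc (T.mt u v) u := (T.exists_mt u v).choose_spec.1
theorem mt_right (T : Tr V) (u v : V) : T.Anc (T.mt u v) v := (T.exists_mt u v).choose_spec.2.1
theorem anc_mt {u v k : V} (h : T.Anc k u) (h' : T.Anc k v) : T.Anc k (T.mt u v) :=
  (T.exists_mt u v).choose_spec.2.2 k h h'

theorem mt_comm (T : Tr V) (u v : V) : T.mt u v = T.mt v u :=
  (anc_mt (T.mt_right u v) (T.mt_left u v)).antisymm (anc_mt (T.mt_right v u) (T.mt_left v u))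

theorem mt_eq_right {u v : V} (h : T.Anc v u) : T.mt u v = v :=
  (T.mt_right u v).antisymm (anc_mt h (T.anc_refl v))

theorem mt_eq_left {u v : V} (h : T.Anc u v) : T.mt u v = u := by
  rw [mt_comm, mt_eq_right h]

@[simp] theorem mt_self (T : Tr V) (u : V) : T.mt u u = u := mt_eq_left (T.anc_refl u)

/-- going deeper than `w` does not change the meet with `v`, unless `w` is an ancestor of `v` -/
theorem mt_eq_of_not_anc {v w u : V} (h : ¬ T.Anc w v) (hu : T.Anc w u) :
    T.mt v u = T.mt v w := by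
  refine Anc.antisymm (anc_mt (T.mt_left v u) ?_) (anc_mt (T.mt_left v w) ((T.mt_right v w).trans hu))
  rcases (T.mt_right v u).chain hu with h' | h'
  · exact h'
  · exact absurd (h'.trans (T.mt_left v u)) h

theorem mt_par {v w : V} (h : ¬ T.Anc w v) : T.mt v (T.par w) = T.mt v w := by
  refine Anc.antisymm (anc_mt (T.mt_left _ _) ((T.mt_right _ _).trans (T.anc_par w)))
    (anc_mt (T.mt_left _ _) ((T.mt_right v w).of_ne fun e => h (e ▸ T.mt_left v w)))

section chain
variable {R : Type*} [CommRing R] (a t : V → R)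

theorem B_trans {k m u : V} (hk : T.Anc k m) (hm : T.Anc m u) :
    T.B t k u = T.B t k m * T.B t m u := by
  refine hk.ind (P := fun k => T.B t k u = T.B t k m * T.B t m u) (by simp) ?_
  intro k hk hr ih
  rw [T.B_par t (hk.trans hm) hr, T.B_par t hk hr, ih]; ring

theorem A_trans {k m u : V} (hk : T.Anc k m) (hm : T.Anc m u) :
    T.A a t k u = T.A a t k m + T.B t k m * T.A a t m u := by
  refine hk.ind (P := fun k => T.A a t k u = T.A a t k m + T.B t k m * T.A a t m u) (by simp) ?_
  intro k hk hr ih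
  rw [T.A_par a t (hk.trans hm) hr, T.A_par a t hk hr, T.B_par t hk hr, ih]; ring

theorem up_trans {k m u : V} (hk : T.Anc k m) (hm : T.Anc m u) (z : R) :
    T.up a t k u z = T.up a t k m (T.up a t m u z) := by
  simp only [up]; rw [A_trans a t hk hm, B_trans t hk hm]; ring

theorem A_par_self {w : V} (hw : w ≠ T.rt) : T.A a t (T.par w) w = a w := by
  rw [T.A_par a t (T.anc_refl w) hw]; simp

theorem B_par_self {w : V} (hw : w ≠ T.rt) : T.B t (T.par w) w = t w := by
  rw [T.B_par t (T.anc_refl w) hw]; simp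

/-- the scale of `u` seen from the meet with `v` -/
noncomputable def sc (T : Tr V) (t : V → R) (v u : V) : R := T.B t (T.mt v u) u

/-- difference of the points `(v, z)`, `(u, z')` in the coordinate of the meet -/
noncomputable def dif (T : Tr V) (a t : V → R) (v : V) (z : R) (u : V) (z' : R) : R :=
  T.up a t (T.mt v u) v z - T.up a t (T.mt v u) u z'

theorem dif_comm (v : V) (z : R) (u : V) (z' : R) :
    T.dif a t v z u z' = - T.dif a t u z' v z := by
  unfold dif; rw [T.mt_comm u v]; ring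

theorem dif_right (v : V) (z : R) (u : V) (z' z'' : R) :
    T.dif a t v z u z' = T.dif a t v z u z'' - T.sc t v u * (z' - z'') := by
  simp only [dif, up, sc]; ring

theorem dif_left (v : V) (z z'' : R) (u : V) (z' : R) :
    T.dif a t v z u z' = T.dif a t v z'' u z' + T.sc t u v * (z - z'') := by
  simp only [dif, up, sc, T.mt_comm u v]; ring

@[simp] theorem dif_same (v : V) (z z' : R) : T.dif a t v z v z' = z - z' := by simp [dif]

@[simp] theorem sc_self (v : V) : T.sc t v v = 1 := by simp [sc]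

theorem sc_of_anc {v u : V} (h : T.Anc u v) : T.sc t v u = 1 := by simp [sc, mt_eq_right h]

/-- separated at a common ancestor implies separated at the meet -/
theorem dif_ne_of_up {m v u : V} (hv : T.Anc m v) (hu : T.Anc m u) {z z' : R}
    (h : T.up a t m v z ≠ T.up a t m u z') : T.dif a t v z u z' ≠ 0 := by
  intro h0
  apply h
  rw [up_trans a t (anc_mt hv hu) (T.mt_left v u), up_trans a t (anc_mt hv hu) (T.mt_right v u),
    sub_eq_zero.mp h0]

end chain
end Tr

section curve
variable {K : Type*} [Field K] {V : Type} {T : Tr V} {a t : V → K}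

theorem Rel.fin {x x' : OnePoint K} {β α z : K} (h : Rel x x' β α) (hz : x' = (z : OnePoint K)) :
    x = ((β + α * z : K) : OnePoint K) := h.2 z hz

theorem Rel.up {x x' : OnePoint K} {β α η : K} (h : Rel x x' β α) (hα : α ≠ 0)
    (hz : x = (η : OnePoint K)) : x' = (((η - β) / α : K) : OnePoint K) := by
  induction x' using OnePoint.rec with
  | infty => rw [h.1 rfl hα] at hz; exact absurd hz.symm (coe_ne_infty _)
  | coe ζ =>
    have := h.2 ζ rfl
    rw [hz] at this
    have h2 : η = β + α * ζ := coe_eq_coe.mp this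
    rw [coe_eq_coe, h2]; field_simp; ring

theorem Rel.refl (x : OnePoint K) : Rel x x 0 1 :=
  ⟨fun h _ => h, fun z hz => by simpa using hz⟩

theorem Rel.trans {x x' x'' : OnePoint K} {β α β' α' : K} (h : Rel x x' β α)
    (h' : Rel x' x'' β' α') : Rel x x'' (β + α * β') (α * α') := by
  refine ⟨fun hi hne => h.1 (h'.1 hi (right_ne_zero_of_mul hne)) (left_ne_zero_of_mul hne),
    fun z hz => ?_⟩
  rw [h.fin (h'.fin hz), coe_eq_coe]; ring

theorem Rel.symm {x x' : OnePoint K} {β α : K} (h : Rel x x' β α) (hα : α ≠ 0) :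
    Rel x' x (-β / α) α⁻¹ := by
  refine ⟨fun hi _ => ?_, fun z hz => ?_⟩
  · induction x' using OnePoint.rec with
    | infty => rfl
    | coe ζ => rw [h.fin rfl] at hi; exact absurd hi (coe_ne_infty _)
  · rw [h.up hα hz, coe_eq_coe]; field_simp; ring

theorem Rel.unique {x y x' : OnePoint K} {β α : K} (h : Rel x x' β α) (h' : Rel y x' β α)
    (hα : α ≠ 0) : x = y := by
  induction x' using OnePoint.rec with
  | infty => rw [h.1 rfl hα, h'.1 rfl hα]
  | coe ζ => rw [h.fin rfl, h'.fin rfl]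

theorem rel_map (β α : K) (x : OnePoint K) : Rel (x.map fun z => β + α * z) x β α := by
  induction x using OnePoint.rec with
  | infty => exact ⟨fun _ _ => rfl, fun z hz => absurd hz.symm (coe_ne_infty _)⟩
  | coe ζ => exact ⟨fun h => absurd h (coe_ne_infty _), fun z hz => by
      rw [coe_eq_coe.mp hz]; rfl⟩

/-- the relation holds for all ancestor pairs -/
theorem rel_anc (P : Cv T a t) {m u : V} (h : T.Anc m u) :
    Rel (P.1 m) (P.1 u) (T.A a t m u) (T.B t m u) := by
  refine h.ind (P := fun m => Rel (P.1 m) (P.1 u) (T.A a t m u) (T.B t m u)) ?_ ?_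
  · simpa using Rel.refl (P.1 u)
  · intro m hm hr ih
    rw [T.A_par a t hm hr, T.B_par t hm hr]
    exact (P.2 m hr).trans ih

theorem fin_anc (P : Cv T a t) {m u : V} (h : T.Anc m u) {z : K} (hz : P.1 u = (z : OnePoint K)) :
    P.1 m = ((T.up a t m u z : K) : OnePoint K) := (rel_anc P h).fin hz

@[simp] theorem pt_self (v : V) (z : K) : (pt T a t v z).1 v = (z : OnePoint K) := by
  simp [pt, ptf_anc T a t z (T.anc_refl v)]

/-- two finite coordinates of a point are related through the meet -/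
theorem dif_eq_zero (P : Cv T a t) {v u : V} {z z' : K} (hp : P.1 v = (z : OnePoint K))
    (hq : P.1 u = (z' : OnePoint K)) : T.dif a t v z u z' = 0 := by
  have h1 := fin_anc P (T.mt_left v u) hp
  rw [fin_anc P (T.mt_right v u) hq, coe_eq_coe] at h1
  rw [Tr.dif, h1, sub_self]

/-- a finite coordinate determines the coordinates of non-zero scale -/
theorem coord_of_ne (P : Cv T a t) {v u : V} {z : K} (hp : P.1 v = (z : OnePoint K))
    (h : T.sc t v u ≠ 0) : P.1 u = ((T.dif a t v z u 0 / T.sc t v u : K) : OnePoint K) := by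
  rw [(rel_anc P (T.mt_right v u)).up h (fin_anc P (T.mt_left v u) hp)]
  simp [Tr.dif, Tr.sc, Tr.up]

theorem pt_of_ne (v : V) (z : K) {u : V} (h : T.sc t v u ≠ 0) :
    (pt T a t v z).1 u = ((T.dif a t v z u 0 / T.sc t v u : K) : OnePoint K) :=
  coord_of_ne _ (pt_self v z) h

theorem pt_of_eq (v : V) (z : K) {u : V} (h : T.sc t v u = 0) : (pt T a t v z).1 u = ∞ := by
  induction hn : T.dep u generalizing u with
  | zero => rw [T.eq_rt_of_dep hn, Tr.sc_of_anc t (T.anc_rt v)] at h; exact absurd h one_ne_zero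
  | succ n ih =>
    have hu : ¬ T.Anc u v := fun hh => by rw [Tr.sc_of_anc t hh] at h; exact one_ne_zero h
    have hr : u ≠ T.rt := fun e => hu (e ▸ T.anc_rt v)
    have hd := T.dep_par u hr
    change ptf T a t v z u = ∞
    rw [ptf_not_anc T a t z hu, dn]
    split_ifs with ht
    · rfl
    · have h2 : T.sc t v (T.par u) = 0 := by
        rw [Tr.sc, ← Tr.mt_par hu, Tr.B_trans t (T.mt_right v _) (T.anc_par u),
          Tr.B_par_self t hr] at h
        exact (mul_eq_zero.mp h).resolve_right ht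
      have := ih h2 (by omega)
      change ptf T a t v z (T.par u) = ∞ at this
      rw [this]; rfl

theorem pt_ne_inf_iff (v : V) (z : K) (u : V) : (pt T a t v z).1 u ≠ ∞ ↔ T.sc t v u ≠ 0 :=
  ⟨fun h h' => h (pt_of_eq v z h'), fun h => by rw [pt_of_ne v z h]; exact coe_ne_infty _⟩

/-- the relation between the coordinates `v` and `u` when `u` is seen with non-zero scale -/
theorem rel_sc (P : Cv T a t) {v u : V} (h : T.sc t v u ≠ 0) :
    Rel (P.1 u) (P.1 v) (T.dif a t v 0 u 0 / T.sc t v u) (T.sc t u v / T.sc t v u) := by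
  have h1 := ((rel_anc P (T.mt_right v u)).symm h).trans (rel_anc P (T.mt_left v u))
  convert h1 using 1
  · simp only [Tr.dif, Tr.sc, Tr.up] at h ⊢; field_simp; ring
  · simp only [Tr.sc, T.mt_comm u v] at h ⊢; field_simp

/-- `(v, z)` is not a node (an OPEN condition) -/
def NN (T : Tr V) (a t : V → K) (v : V) (z : K) : Prop :=
  ∀ u, T.sc t v u ≠ 0 ∨ T.dif a t v z u 0 ≠ 0

theorem eq_pt (P : Cv T a t) {v : V} {z : K} (hq : P.1 v = (z : OnePoint K))
    (hN : NN T a t v z) : P = pt T a t v z := by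
  refine Subtype.ext (funext fun u => ?_)
  by_cases h : T.sc t v u = 0
  · rw [pt_of_eq v z h]
    induction hz : P.1 u using OnePoint.rec with
    | infty => rfl
    | coe ζ =>
      have := dif_eq_zero P hq hz
      rw [Tr.dif_right a t v z u ζ 0, h] at this
      rcases hN u with h' | h'
      · exact absurd h h'
      · exact absurd (by simpa using this) h'
  · rw [coord_of_ne P hq h, pt_of_ne v z h]

theorem NN.simple {v : V} {z : K} (hN : NN T a t v z) : Simple (pt T a t v z) :=
  ⟨v, by simp, fun P hP => eq_pt P (by simpa using hP) hN⟩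

/-- if `dif` vanishes at a non-node then the scale is non-zero -/
theorem NN.sc_ne {v u : V} {z z' : K} (hN : NN T a t v z) (h : T.dif a t v z u z' = 0) :
    T.sc t v u ≠ 0 := by
  intro h0
  rw [Tr.dif_right a t v z u z' 0, h0] at h
  exact (hN u).elim (fun h' => h' h0) (fun h' => h' (by simpa using h))

theorem NN.pt_eq {v u : V} {z z' : K} (hN : NN T a t v z) (hN' : NN T a t u z')
    (h : T.dif a t v z u z' = 0) : pt T a t v z = pt T a t u z' := by
  refine eq_pt _ ?_ hN'
  have h1 := hN.sc_ne h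
  rw [pt_of_ne v z h1, coe_eq_coe, Tr.dif_right a t v z u 0 z', h]
  field_simp; ring

theorem dif_of_pt_eq {v u : V} {z z' : K} (h : pt T a t v z = pt T a t u z') :
    T.dif a t v z u z' = 0 :=
  dif_eq_zero (pt T a t v z) (pt_self v z) (by rw [h]; exact pt_self u z')

@[simp] theorem ivs_inf (b : K) : ivs (∞ : OnePoint K) b = 0 := rfl
@[simp] theorem ivs_coe (z b : K) : ivs (z : OnePoint K) b = (z - b)⁻¹ := rfl
@[simp] theorem fin_coe (z : K) : fin (z : OnePoint K) = z := rfl

/-- `1 / (x_u - b)` at the point `(v, z)` -/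
theorem ivs_pt (v : V) (z : K) (u : V) (b : K) :
    ivs ((pt T a t v z).1 u) b = T.sc t v u / T.dif a t v z u b := by
  by_cases h : T.sc t v u = 0
  · rw [pt_of_eq v z h, h]; simp
  · rw [pt_of_ne v z h, ivs_coe, Tr.dif_right a t v z u b 0, ← inv_div (T.dif a t v z u 0 - _)]
    congr 1; field_simp; ring

theorem ivs_rel {x x' : OnePoint K} {β α : K} (h : Rel x x' β α) (hα : α ≠ 0) (b : K) :
    ivs x (β + α * b) = α⁻¹ * ivs x' b := by
  induction x' using OnePoint.rec with
  | infty => rw [h.1 rfl hα]; simp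
  | coe ζ => rw [h.fin rfl, ivs_coe, ivs_coe, ← mul_inv]; congr 1; ring

/-- partial fractions -/
theorem ivs_mul_ivs (P : Cv T a t) {v u : V} {b b' : K} (hd : T.dif a t v b u b' ≠ 0)
    (h : P.1 v ≠ (b : OnePoint K)) (h' : P.1 u ≠ (b' : OnePoint K)) :
    ivs (P.1 v) b * ivs (P.1 u) b' =
      T.sc t v u / T.dif a t v b u b' * ivs (P.1 v) b +
        T.sc t u v / T.dif a t u b' v b * ivs (P.1 u) b' := by
  induction hv : P.1 v using OnePoint.rec with
  | infty =>
    induction hu : P.1 u using OnePoint.rec with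
    | infty => simp
    | coe ζ' =>
      have : T.sc t u v = 0 := by
        by_contra hc; rw [coord_of_ne P hu hc] at hv; exact coe_ne_infty _ hv
      simp [this]
  | coe ζ =>
    induction hu : P.1 u using OnePoint.rec with
    | infty =>
      have : T.sc t v u = 0 := by
        by_contra hc; rw [coord_of_ne P hv hc] at hu; exact coe_ne_infty _ hu
      simp [this]
    | coe ζ' =>
      have h0 := dif_eq_zero P hv hu
      rw [Tr.dif_right a t v ζ u ζ' b', Tr.dif_left a t v ζ b u b'] at h0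
      have h1 : ζ - b ≠ 0 := sub_ne_zero.mpr fun e => h (by rw [hv, e])
      have h2 : ζ' - b' ≠ 0 := sub_ne_zero.mpr fun e => h' (by rw [hu, e])
      rw [ivs_coe, ivs_coe, Tr.dif_comm a t u b' v b]
      field_simp
      linear_combination h0

/-- the centres of vertices of scale `0` are separated -/
def SepC (T : Tr V) (a t : V → K) : Prop :=
  ∀ v u, T.sc t v u = 0 → T.sc t u v = 0 → T.dif a t v 0 u 0 ≠ 0

theorem SepC.dif_ne (h : SepC T a t) {v u : V} (h1 : T.sc t v u = 0) (h2 : T.sc t u v = 0)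
    (z z' : K) : T.dif a t v z u z' ≠ 0 := by
  rw [Tr.dif_right a t v z u z' 0, Tr.dif_left a t v z 0 u 0, h1, h2]
  simpa using h v u h1 h2

/-- a point determined by its `v`-coordinate is not a node -/
theorem SepC.nn_of_uniq (h : SepC T a t) {v : V} {z : K}
    (hu : ∀ P : Cv T a t, P.1 v = (z : OnePoint K) → P = pt T a t v z) : NN T a t v z := by
  intro u
  by_contra hc
  push Not at hc
  obtain ⟨h1, h2⟩ := hc
  by_cases hs : T.sc t u v = 0
  · exact h.dif_ne h1 hs z 0 h2
  · have h3 : (pt T a t u 0).1 v = (z : OnePoint K) := by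
      rw [pt_of_ne u 0 hs, coe_eq_coe, Tr.dif_right a t u 0 v 0 z, Tr.dif_comm, h2]
      field_simp; ring
    have h4 := congrArg (fun P : Cv T a t => P.1 u) (hu _ h3)
    simp only [pt_of_eq v z h1, pt_self] at h4
    exact coe_ne_infty _ h4

theorem SepC.simple_iff (h : SepC T a t) {P : Cv T a t} :
    Simple P ↔ ∃ v z, P = pt T a t v z ∧ NN T a t v z := by
  refine ⟨fun ⟨v, hv, hu⟩ => ?_, fun ⟨v, z, hP, hN⟩ => hP ▸ hN.simple⟩
  obtain ⟨z, hz⟩ := ne_infty_iff_exists.mp hv
  have hP : pt T a t v z = P := hu _ (by rw [pt_self, hz])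
  exact ⟨v, z, hP.symm, h.nn_of_uniq fun P' hP' => by rw [hP]; exact hu _ (by rw [hP', hz])⟩

/-- every point is the root marking or a point `pt v z` -/
theorem SepC.eq_inf_or_pt [Finite V] (h : SepC T a t) (P : Cv T a t) :
    P = ptInf T a t ∨ ∃ v z, P = pt T a t v z := by
  classical
  by_cases hP : ∀ v, P.1 v = ∞
  · exact Or.inl (Subtype.ext (funext hP))
  right
  push Not at hP
  have := Fintype.ofFinite V
  -- a finite coordinate with the largest set of vertices of scale zero
  obtain ⟨v, hv, hmax⟩ := Finset.exists_min_image (Finset.univ.filter fun v => P.1 v ≠ ∞)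
    (fun v => (Finset.univ.filter fun u => P.1 u ≠ ∞ ∧ T.sc t v u = 0).card)
    (by obtain ⟨v, hv⟩ := hP; exact ⟨v, by simpa using hv⟩)
  have hv' : P.1 v ≠ ∞ := by simpa using hv
  obtain ⟨z, hz⟩ := ne_infty_iff_exists.mp hv'
  refine ⟨v, z, Subtype.ext (funext fun u => ?_)⟩
  by_cases h1 : T.sc t v u = 0
  · rw [pt_of_eq v z h1]
    by_contra hu
    obtain ⟨z', hz'⟩ := ne_infty_iff_exists.mp hu
    have hd := dif_eq_zero P hz.symm hz'.symm
    have h2 : T.sc t u v ≠ 0 := fun h2 => h.dif_ne h1 h2 z z' hd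
    refine absurd (hmax u (by simpa using hu)) (not_le.mpr (Finset.card_lt_card ⟨?_, ?_⟩))
    · intro w hw
      simp only [Finset.mem_filter, Finset.mem_univ, true_and] at hw ⊢
      refine ⟨hw.1, ?_⟩
      by_contra h3
      -- `pt u z'` has finite `v`-coordinate, hence finite `w`-coordinate
      have h4 := pt_of_ne (a := a) u z' h2
      have h5 := coord_of_ne _ h4 h3
      rw [pt_of_eq u z' hw.2] at h5
      exact coe_ne_infty _ h5.symm
    · intro hsub
      have : u ∈ Finset.univ.filter fun w => P.1 w ≠ ∞ ∧ T.sc t u w = 0 :=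
        hsub (by simp [hu, h1])
      simp at this
  · rw [coord_of_ne P hz.symm h1, pt_of_ne v z h1]

end curve

namespace Sh
variable {V M J I : Type} {S : Sh V M J} {K : Type*} [Field K] {u : Q V M J I K}

theorem Sep.dif_ne {p q : M ⊕ J} (h : S.Sep u p q) :
    S.dif u.a u.t (S.vl p) (u.yl p) (S.vl q) (u.yl q) ≠ 0 := by
  obtain ⟨m, h1, h2, h3⟩ := h
  exact Tr.dif_ne_of_up _ _ h1 h2 h3

theorem sep_iff {p q : M ⊕ J} :
    S.Sep u p q ↔ S.dif u.a u.t (S.vl p) (u.yl p) (S.vl q) (u.yl q) ≠ 0 :=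
  ⟨Sep.dif_ne, fun h => ⟨_, S.mt_left _ _, S.mt_right _ _, sub_ne_zero.mp h⟩⟩

/-- a point seen against a vertex of scale zero: replace the vertex by a leaf above it -/
theorem dif_leaf {v w : V} {p : M ⊕ J} (hp : S.Anc w (S.vl p)) (h : S.sc u.t v w = 0) (z : K) :
    S.sc u.t v (S.vl p) = 0 ∧
      S.dif u.a u.t v z (S.vl p) (u.yl p) = S.dif u.a u.t v z w 0 := by
  have hw : ¬ S.Anc w v := fun hh => by rw [Tr.sc_of_anc _ hh] at h; exact one_ne_zero h
  have hm := Tr.mt_eq_of_not_anc hw hp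
  simp only [Tr.sc] at h
  constructor
  · rw [Tr.sc, hm, Tr.B_trans _ (S.mt_right v w) hp, h, zero_mul]
  · simp only [Tr.dif, hm]
    rw [Tr.up_trans _ _ (S.mt_right v w) hp]
    simp [Tr.up, h]

theorem nn_lf (hl : ∀ v, ∃ p, S.Anc v (S.vl p)) (hs : ∀ p q, p ≠ q → S.Sep u p q) (p : M ⊕ J) :
    NN S.toTr u.a u.t (S.vl p) (u.yl p) := by
  intro w
  by_cases h : S.sc u.t (S.vl p) w = 0
  · right
    obtain ⟨q, hq⟩ := hl w
    obtain ⟨h1, h2⟩ := dif_leaf (u := u) hq h (u.yl p)
    rw [← h2]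
    refine (hs p q ?_).dif_ne
    rintro rfl
    simp at h1
  · exact Or.inl h

theorem sepC (hl : ∀ v, ∃ p, S.Anc v (S.vl p)) (hs : ∀ p q, p ≠ q → S.Sep u p q) :
    SepC S.toTr u.a u.t := by
  intro v w h1 h2
  obtain ⟨p, hp⟩ := hl v
  obtain ⟨h3, h4⟩ := dif_leaf (u := u) hp h2 0
  rw [Tr.dif_comm, ← h4, ← Tr.dif_comm]
  have h5 : S.sc u.t (S.vl p) w = 0 := by
    have hv : ¬ S.Anc v w := fun hh => by rw [Tr.sc_of_anc _ hh] at h2; exact one_ne_zero h2
    rw [Tr.sc, Tr.mt_comm, Tr.mt_eq_of_not_anc hv hp, Tr.mt_comm]; exact h1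
  exact (nn_lf hl hs p w).resolve_left (not_not.mpr h5)

variable [Fintype I]

theorem Good.nn (h : S.Good u) (p : M ⊕ J) : NN S.toTr u.a u.t (S.vl p) (u.yl p) :=
  nn_lf h.leaf h.sep p

theorem Good.sepC (h : S.Good u) : SepC S.toTr u.a u.t := Sh.sepC h.leaf h.sep

theorem Good.eq_lf (h : S.Good u) {p : M ⊕ J} (P : S.C u)
    (hP : P.1 (S.vl p) = ((u.yl p : K) : OnePoint K)) : P = S.lf u p := eq_pt P hP (h.nn p)

theorem Good.lf_injective (h : S.Good u) : Function.Injective (S.lf u) := fun p q hpq => by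
  by_contra hne
  exact (h.sep p q hne).dif_ne (dif_of_pt_eq hpq)

end Sh

end Crest.Agent.X262.Mb
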